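import Mathlib
import Vale.Agent.Lib.P162.Defs
import Vale.Agent.Lib.P162.RDefs
import Vale.Agent.Lib.P162.helper36.MoveInj

/-!
Thorp shuffle: a new card placed uniformly off the old cards stays uniform off the old cards
(pool piece P162-R2, `comm_new`). The shuffles are bijections of the positions.
-/

namespace Vale.Agent.Lib.P162.H16

open Finset BigOperators

/-- Sum over functions on `Fin (k + 1)` split along the first coordinate. -/
theorem cn_sum_succ {α : Type*} [Fintype α] (k : ℕ) (f : (Fin (k + 1) → α) → ℝ) :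
    ∑ y : Fin (k + 1) → α, f y = ∑ q : α, ∑ y' : Fin k → α, f (Fin.cons q y') := by
  rw [← (Fin.consEquiv (fun _ : Fin (k + 1) => α)).sum_comp f, Fintype.sum_prod_type]
  rfl

/-- Counting form of the one-step fact: coins moving the old cards `w` to `Fin.tail u` move
exactly one position to `u 0`, and that position is off `w` iff `u 0` is off `Fin.tail u`. -/
theorem cn_count (h j : ℕ) [NeZero h] (w : Fin j → ZMod (2 * h))
    (u : Fin (j + 1) → ZMod (2 * h)) :
    ∑ p ∈ univ.filter (fun p : ZMod (2 * h) => ∀ i, p ≠ w i),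
        (univ.filter fun c : ZMod h → Bool =>
          ∀ i, move h c ((Fin.cons p w : Fin (j + 1) → ZMod (2 * h)) i) = u i).card
      = if ∀ i : Fin j, u 0 ≠ u i.succ then
          (univ.filter fun c : ZMod h → Bool => ∀ i, move h c (w i) = Fin.tail u i).card
        else 0 := by
  have h1 : ∀ p : ZMod (2 * h),
      (univ.filter fun c : ZMod h → Bool =>
          ∀ i, move h c ((Fin.cons p w : Fin (j + 1) → ZMod (2 * h)) i) = u i).card
        = ∑ c : ZMod h → Bool,
            if (move h c p = u 0 ∧ ∀ i : Fin j, move h c (w i) = u i.succ) then 1 else 0 := by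
    intro p
    rw [Finset.card_filter]
    refine Finset.sum_congr rfl fun c _ => ?_
    have h0 : (∀ i, move h c ((Fin.cons p w : Fin (j + 1) → ZMod (2 * h)) i) = u i) ↔
        (move h c p = u 0 ∧ ∀ i : Fin j, move h c (w i) = u i.succ) :=
      Fin.forall_fin_succ
    exact if_congr h0 rfl rfl
  rw [Finset.sum_congr rfl (fun p _ => h1 p), Finset.sum_comm]
  have h2 : ∀ c : ZMod h → Bool,
      ∑ p ∈ univ.filter (fun p : ZMod (2 * h) => ∀ i, p ≠ w i),
        (if (move h c p = u 0 ∧ ∀ i : Fin j, move h c (w i) = u i.succ) then 1 else 0)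
      = if (∀ i : Fin j, move h c (w i) = u i.succ) then
          (if ∀ i : Fin j, u 0 ≠ u i.succ then 1 else 0) else 0 := by
    intro c
    by_cases hB : ∀ i : Fin j, move h c (w i) = u i.succ
    · rw [if_pos hB]
      have hinj := H36.move_injective h c
      obtain ⟨p0, hp0⟩ := (Finite.injective_iff_surjective.mp hinj) (u 0)
      have h3 : ∀ p ∈ univ.filter (fun p : ZMod (2 * h) => ∀ i, p ≠ w i),
          (if (move h c p = u 0 ∧ ∀ i : Fin j, move h c (w i) = u i.succ) then 1 else 0)
            = if p = p0 then 1 else 0 := by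
        intro p _
        have h4 : (move h c p = u 0 ∧ ∀ i : Fin j, move h c (w i) = u i.succ) ↔ p = p0 := by
          constructor
          · rintro ⟨h4, -⟩
            exact hinj (h4.trans hp0.symm)
          · rintro rfl
            exact ⟨hp0, hB⟩
        exact if_congr h4 rfl rfl
      rw [Finset.sum_congr rfl h3, Finset.sum_ite_eq']
      have h5 : (p0 ∈ univ.filter (fun p : ZMod (2 * h) => ∀ i, p ≠ w i)) ↔
          ∀ i : Fin j, u 0 ≠ u i.succ := by
        rw [Finset.mem_filter]
        constructor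
        · rintro ⟨-, h6⟩ i h7
          apply h6 i
          apply hinj
          rw [hp0, hB i, h7]
        · intro h6
          refine ⟨Finset.mem_univ _, fun i h7 => h6 i ?_⟩
          rw [← hp0, h7, hB i]
      exact if_congr h5 rfl rfl
    · rw [if_neg hB]
      refine Finset.sum_eq_zero fun p _ => if_neg ?_
      exact fun h4 => hB h4.2
  rw [Finset.sum_congr rfl (fun c _ => h2 c)]
  by_cases hG : ∀ i : Fin j, u 0 ≠ u i.succ
  · rw [if_pos hG, if_pos hG, Finset.card_filter]
    exact Finset.sum_congr rfl fun c _ => rfl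
  · rw [if_neg hG, if_neg hG]
    exact Finset.sum_eq_zero fun c _ => ite_self _

/-- The one-step fact. -/
theorem cn_step (h j : ℕ) [NeZero h] (w : Fin j → ZMod (2 * h))
    (u : Fin (j + 1) → ZMod (2 * h)) :
    ∑ p ∈ univ.filter (fun p : ZMod (2 * h) => ∀ i, p ≠ w i),
        stepProb h (j + 1) (Fin.cons p w) u
      = if ∀ i : Fin j, u 0 ≠ u i.succ then stepProb h j w (Fin.tail u) else 0 := by
  unfold stepProb
  rw [← Finset.sum_div, ← Nat.cast_sum, cn_count]
  by_cases hG : ∀ i : Fin j, u 0 ≠ u i.succ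
  · rw [if_pos hG, if_pos hG]
  · rw [if_neg hG, if_neg hG, Nat.cast_zero, zero_div]

/-- The case of zero steps. -/
theorem cn_zero (h j : ℕ) [NeZero h] (w : Fin j → ZMod (2 * h))
    (y : Fin (j + 1) → ZMod (2 * h)) :
    ∑ p ∈ univ.filter (fun p : ZMod (2 * h) => ∀ i, p ≠ w i),
        (1 : Matrix (Fin (j + 1) → ZMod (2 * h)) (Fin (j + 1) → ZMod (2 * h)) ℝ)
          (Fin.cons p w) y
      = if ∀ i : Fin j, y 0 ≠ y i.succ then
          (1 : Matrix (Fin j → ZMod (2 * h)) (Fin j → ZMod (2 * h)) ℝ) w (Fin.tail y)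
        else 0 := by
  have h1 : ∀ p : ZMod (2 * h),
      ((Fin.cons p w : Fin (j + 1) → ZMod (2 * h)) = y) ↔ (p = y 0 ∧ w = Fin.tail y) := by
    intro p
    constructor
    · rintro rfl
      exact ⟨rfl, funext fun i => rfl⟩
    · rintro ⟨rfl, rfl⟩
      exact Fin.cons_self_tail y
  by_cases hw : w = Fin.tail y
  · have h2 : ∀ p ∈ univ.filter (fun p : ZMod (2 * h) => ∀ i, p ≠ w i),
        (1 : Matrix (Fin (j + 1) → ZMod (2 * h)) (Fin (j + 1) → ZMod (2 * h)) ℝ)
          (Fin.cons p w) y = if p = y 0 then 1 else 0 := by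
      intro p _
      rw [Matrix.one_apply]
      exact if_congr ((h1 p).trans (and_iff_left hw)) rfl rfl
    rw [Finset.sum_congr rfl h2, Finset.sum_ite_eq', Matrix.one_apply, if_pos hw]
    refine if_congr ?_ rfl rfl
    rw [Finset.mem_filter]
    constructor
    · rintro ⟨-, h3⟩ i
      have h4 := h3 i
      rw [hw] at h4
      exact h4
    · intro h3
      refine ⟨Finset.mem_univ _, fun i => ?_⟩
      rw [hw]
      exact h3 i
  · have h2 : ∀ p ∈ univ.filter (fun p : ZMod (2 * h) => ∀ i, p ≠ w i),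
        (1 : Matrix (Fin (j + 1) → ZMod (2 * h)) (Fin (j + 1) → ZMod (2 * h)) ℝ)
          (Fin.cons p w) y = 0 := by
      intro p _
      rw [Matrix.one_apply]
      exact if_neg fun h3 => hw ((h1 p).mp h3).2
    rw [Finset.sum_eq_zero h2, Matrix.one_apply, if_neg hw, ite_self]

/-- A new card placed uniformly off the old cards stays uniform off the old cards. -/
theorem comm_new (h j : ℕ) [NeZero h] (s : ℕ) (w : Fin j → ZMod (2 * h))
    (y : Fin (j + 1) → ZMod (2 * h)) :
    ∑ p ∈ univ.filter (fun p : ZMod (2 * h) => ∀ i, p ≠ w i),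
        (Kmat h (j + 1) ^ s) (Fin.cons p w : Fin (j + 1) → ZMod (2 * h)) y
      = if ∀ i : Fin j, y 0 ≠ y i.succ then (Kmat h j ^ s) w (Fin.tail y) else 0 := by
  induction s generalizing w with
  | zero =>
    rw [pow_zero, pow_zero]
    exact cn_zero h j w y
  | succ s ih =>
    rw [pow_succ', pow_succ']
    have h1 : ∀ p : ZMod (2 * h),
        (Kmat h (j + 1) * Kmat h (j + 1) ^ s) (Fin.cons p w : Fin (j + 1) → ZMod (2 * h)) y
          = ∑ u, stepProb h (j + 1) (Fin.cons p w) u * (Kmat h (j + 1) ^ s) u y := by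
      intro p
      rw [Matrix.mul_apply]
      rfl
    rw [Finset.sum_congr rfl (fun p _ => h1 p), Finset.sum_comm]
    have h2 : ∀ u : Fin (j + 1) → ZMod (2 * h),
        ∑ p ∈ univ.filter (fun p : ZMod (2 * h) => ∀ i, p ≠ w i),
          stepProb h (j + 1) (Fin.cons p w) u * (Kmat h (j + 1) ^ s) u y
        = (if ∀ i : Fin j, u 0 ≠ u i.succ then stepProb h j w (Fin.tail u) else 0) *
            (Kmat h (j + 1) ^ s) u y := by
      intro u
      rw [← Finset.sum_mul, cn_step]
    rw [Finset.sum_congr rfl (fun u _ => h2 u), cn_sum_succ, Finset.sum_comm]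
    have h3 : ∀ w' : Fin j → ZMod (2 * h),
        ∑ q : ZMod (2 * h),
          (if ∀ i : Fin j, (Fin.cons q w' : Fin (j + 1) → ZMod (2 * h)) 0 ≠
              (Fin.cons q w' : Fin (j + 1) → ZMod (2 * h)) i.succ then
            stepProb h j w (Fin.tail (Fin.cons q w' : Fin (j + 1) → ZMod (2 * h))) else 0) *
            (Kmat h (j + 1) ^ s) (Fin.cons q w') y
        = stepProb h j w w' *
            (if ∀ i : Fin j, y 0 ≠ y i.succ then (Kmat h j ^ s) w' (Fin.tail y) else 0) := by
      intro w'
      rw [← ih w', Finset.mul_sum, Finset.sum_filter]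
      refine Finset.sum_congr rfl fun q _ => ?_
      have h4 : (∀ i : Fin j, (Fin.cons q w' : Fin (j + 1) → ZMod (2 * h)) 0 ≠
          (Fin.cons q w' : Fin (j + 1) → ZMod (2 * h)) i.succ) ↔ ∀ i : Fin j, q ≠ w' i :=
        Iff.rfl
      by_cases h5 : ∀ i : Fin j, q ≠ w' i
      · rw [if_pos (h4.mpr h5), if_pos h5, Fin.tail_cons]
      · rw [if_neg (fun h6 => h5 (h4.mp h6)), if_neg h5, zero_mul]
    rw [Finset.sum_congr rfl (fun w' _ => h3 w')]
    by_cases hG : ∀ i : Fin j, y 0 ≠ y i.succ
    · rw [if_pos hG, Matrix.mul_apply]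
      refine Finset.sum_congr rfl fun w' _ => ?_
      rw [if_pos hG]
      rfl
    · rw [if_neg hG]
      refine Finset.sum_eq_zero fun w' _ => ?_
      rw [if_neg hG, mul_zero]

end Vale.Agent.Lib.P162.H16
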