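import Mathlib
import Vale.Agent.Lib.P162.Defs
import Vale.Agent.Lib.P162.RDefs
import Vale.Agent.Lib.P162.CVDefs
import Vale.Agent.Lib.P162.helper43.LumpTail
import Vale.Agent.Lib.P162.helper95.KmatBasic
import Vale.Agent.Lib.P162.helper16.CommNew

/-!
Thorp shuffle, two-walker kernel (pool piece P162-CV4). The two-walker transition weights
started from a common position form a positive semidefinite array in the two walker positions,
and the one-walker weights are controlled by them through the Cauchy-Schwarz inequality.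
-/

namespace Vale.Agent.Lib.P162.H16CV

open Finset BigOperators

/-! Generic finite-sum identities (no shuffle objects). -/

/-- Reordering of a five-fold finite sum. -/
theorem reorder5 {α V : Type*} [Fintype α] [Fintype V] (T : α → α → V → α → α → ℝ) :
    ∑ q1, ∑ q1', ∑ v, ∑ q, ∑ q', T q1 q1' v q q'
      = ∑ v, ∑ q, ∑ q', ∑ q1, ∑ q1', T q1 q1' v q q' := by
  calc ∑ q1, ∑ q1', ∑ v, ∑ q, ∑ q', T q1 q1' v q q'
      = ∑ q1, ∑ v, ∑ q1', ∑ q, ∑ q', T q1 q1' v q q' :=
        Finset.sum_congr rfl fun _ _ => Finset.sum_comm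
    _ = ∑ v, ∑ q1, ∑ q1', ∑ q, ∑ q', T q1 q1' v q q' := Finset.sum_comm
    _ = ∑ v, ∑ q1, ∑ q, ∑ q1', ∑ q', T q1 q1' v q q' :=
        Finset.sum_congr rfl fun _ _ => Finset.sum_congr rfl fun _ _ => Finset.sum_comm
    _ = ∑ v, ∑ q, ∑ q1, ∑ q1', ∑ q', T q1 q1' v q q' :=
        Finset.sum_congr rfl fun _ _ => Finset.sum_comm
    _ = ∑ v, ∑ q, ∑ q1, ∑ q', ∑ q1', T q1 q1' v q q' :=
        Finset.sum_congr rfl fun _ _ => Finset.sum_congr rfl fun _ _ =>
          Finset.sum_congr rfl fun _ _ => Finset.sum_comm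
    _ = ∑ v, ∑ q, ∑ q', ∑ q1, ∑ q1', T q1 q1' v q q' :=
        Finset.sum_congr rfl fun _ _ => Finset.sum_congr rfl fun _ _ => Finset.sum_comm

/-- Generic form of the one-step expansion of the quadratic form. -/
theorem e1_generic {α V : Type*} [Fintype α] [Fintype V] (ξ : α → ℝ) (M : V → α → α → ℝ)
    (K : V → α → α → ℝ) (D : V → ℝ) :
    ∑ q1, ∑ q1', ξ q1 * ξ q1' * ∑ v, ∑ q, ∑ q', M v q q' * (K v q q1 * K v q' q1' / D v)
      = ∑ v, (∑ q, ∑ q', (∑ q1, ξ q1 * K v q q1) * (∑ q1', ξ q1' * K v q' q1') * M v q q')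
          / D v := by
  have hL : ∀ q1 q1', ξ q1 * ξ q1' * ∑ v, ∑ q, ∑ q', M v q q' * (K v q q1 * K v q' q1' / D v)
      = ∑ v, ∑ q, ∑ q', ξ q1 * ξ q1' * (M v q q' * (K v q q1 * K v q' q1' / D v)) := by
    intro q1 q1'
    rw [Finset.mul_sum]
    refine Finset.sum_congr rfl fun v _ => ?_
    rw [Finset.mul_sum]
    refine Finset.sum_congr rfl fun q _ => ?_
    rw [Finset.mul_sum]
  have hR : ∀ v, (∑ q, ∑ q', (∑ q1, ξ q1 * K v q q1) * (∑ q1', ξ q1' * K v q' q1') * M v q q')
        / D v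
      = ∑ q, ∑ q', ∑ q1, ∑ q1', ξ q1 * ξ q1' * (M v q q' * (K v q q1 * K v q' q1' / D v)) := by
    intro v
    rw [Finset.sum_div]
    refine Finset.sum_congr rfl fun q _ => ?_
    rw [Finset.sum_div]
    refine Finset.sum_congr rfl fun q' _ => ?_
    rw [Finset.sum_mul_sum, Finset.sum_mul, Finset.sum_div]
    refine Finset.sum_congr rfl fun q1 _ => ?_
    rw [Finset.sum_mul, Finset.sum_div]
    refine Finset.sum_congr rfl fun q1' _ => ?_
    ring
  rw [Finset.sum_congr rfl fun q1 _ => Finset.sum_congr rfl fun q1' _ => hL q1 q1',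
    Finset.sum_congr rfl fun v _ => hR v]
  exact reorder5 _

/-- Generic form of the one-step expansion of the linear form. -/
theorem e2_generic {α V : Type*} [Fintype α] [Fintype V] (ξ : α → ℝ) (A : V → α → ℝ)
    (K : V → α → α → ℝ) :
    ∑ q1, ξ q1 * ∑ q, ∑ v, A v q * K v q q1
      = ∑ v, ∑ q, (∑ q1, ξ q1 * K v q q1) * A v q := by
  have hL : ∀ q1, ξ q1 * ∑ q, ∑ v, A v q * K v q q1
      = ∑ q, ∑ v, ξ q1 * K v q q1 * A v q := by
    intro q1
    rw [Finset.mul_sum]
    refine Finset.sum_congr rfl fun q _ => ?_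
    rw [Finset.mul_sum]
    refine Finset.sum_congr rfl fun v _ => ?_
    ring
  have hR : ∀ v q, (∑ q1, ξ q1 * K v q q1) * A v q = ∑ q1, ξ q1 * K v q q1 * A v q := by
    intro v q
    rw [Finset.sum_mul]
  rw [Finset.sum_congr rfl fun q1 _ => hL q1,
    Finset.sum_congr rfl fun v _ => Finset.sum_congr rfl fun q _ => hR v q]
  calc ∑ q1, ∑ q, ∑ v, ξ q1 * K v q q1 * A v q
      = ∑ q, ∑ q1, ∑ v, ξ q1 * K v q q1 * A v q := Finset.sum_comm
    _ = ∑ q, ∑ v, ∑ q1, ξ q1 * K v q q1 * A v q :=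
        Finset.sum_congr rfl fun _ _ => Finset.sum_comm
    _ = ∑ v, ∑ q, ∑ q1, ξ q1 * K v q q1 * A v q := Finset.sum_comm

/-- Sum against an indicator. -/
theorem single_sum {α : Type*} [Fintype α] [DecidableEq α] (q : α) (F : α → ℝ) :
    ∑ x, (if x = q then (1 : ℝ) else 0) * F x = F q := by
  rw [Finset.sum_eq_single q]
  · rw [if_pos rfl, one_mul]
  · intro x _ hx
    rw [if_neg hx, zero_mul]
  · intro hq
    exact absurd (Finset.mem_univ q) hq

/-- Double sum against a product of indicators. -/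
theorem single_sum2 {α : Type*} [Fintype α] [DecidableEq α] (q q' : α) (F : α → α → ℝ) :
    ∑ x, ∑ y, (if x = q then (1 : ℝ) else 0) * (if y = q' then (1 : ℝ) else 0) * F x y
      = F q q' := by
  rw [Finset.sum_eq_single q]
  · rw [Finset.sum_eq_single q']
    · rw [if_pos rfl, if_pos rfl, one_mul, one_mul]
    · intro y _ hy
      rw [if_neg hy, mul_zero, zero_mul]
    · intro hq
      exact absurd (Finset.mem_univ q') hq
  · intro x _ hx
    refine Finset.sum_eq_zero fun y _ => ?_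
    rw [if_neg hx, zero_mul, zero_mul]
  · intro hq
    exact absurd (Finset.mem_univ q) hq

/-- Double sum against a product of differences of indicators. -/
theorem diff_sum2 {α : Type*} [Fintype α] [DecidableEq α] (q q' : α) (F : α → α → ℝ) :
    ∑ x, ∑ y, ((if x = q then (1 : ℝ) else 0) - (if x = q' then (1 : ℝ) else 0))
        * ((if y = q then (1 : ℝ) else 0) - (if y = q' then (1 : ℝ) else 0)) * F x y
      = F q q - F q q' - F q' q + F q' q' := by
  have h1 : ∀ x y : α, ((if x = q then (1 : ℝ) else 0) - (if x = q' then (1 : ℝ) else 0))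
        * ((if y = q then (1 : ℝ) else 0) - (if y = q' then (1 : ℝ) else 0)) * F x y
      = (if x = q then (1 : ℝ) else 0) * (if y = q then (1 : ℝ) else 0) * F x y
        - (if x = q then (1 : ℝ) else 0) * (if y = q' then (1 : ℝ) else 0) * F x y
        - (if x = q' then (1 : ℝ) else 0) * (if y = q then (1 : ℝ) else 0) * F x y
        + (if x = q' then (1 : ℝ) else 0) * (if y = q' then (1 : ℝ) else 0) * F x y := by
    intro x y
    ring
  simp only [h1, Finset.sum_add_distrib, Finset.sum_sub_distrib, single_sum2]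

/-- Cancelling a nonzero factor. -/
theorem cancel_mid (a b c : ℝ) (hb : b ≠ 0) : a * c = a * b * (c / b) := by
  field_simp

/-! The two-walker kernel. -/

/-- One more step of the two-walker kernel, written out over the intermediate state. -/
theorem Qpow_succ_expand (h j : ℕ) [NeZero h] (t : ℕ) (u0 : Fin (j + 2) → ZMod (2 * h))
    (q1 q1' : ZMod (2 * h)) (v1 : Fin j → ZMod (2 * h)) :
    (Qmat h j ^ (t + 1)) u0 (Fin.cons q1 (Fin.cons q1' v1))
      = ∑ v : Fin j → ZMod (2 * h), ∑ q : ZMod (2 * h), ∑ q' : ZMod (2 * h),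
          (Qmat h j ^ t) u0 (Fin.cons q (Fin.cons q' v))
            * (Kmat h (j + 1) (Fin.cons q v) (Fin.cons q1 v1)
              * Kmat h (j + 1) (Fin.cons q' v) (Fin.cons q1' v1) / Kmat h j v v1) := by
  rw [pow_succ, Matrix.mul_apply]
  refine (H16.cn_sum_succ (j + 1) (fun x => (Qmat h j ^ t) u0 x
    * Qmat h j x (Fin.cons q1 (Fin.cons q1' v1)))).trans ?_
  refine (Finset.sum_congr rfl fun q _ => H16.cn_sum_succ j (fun y' =>
    (Qmat h j ^ t) u0 (Fin.cons q y')
      * Qmat h j (Fin.cons q y') (Fin.cons q1 (Fin.cons q1' v1)))).trans ?_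
  refine (Finset.sum_congr rfl fun q _ => Finset.sum_comm).trans ?_
  exact Finset.sum_comm

/-- (E1) One-step expansion of the quadratic form of the two-walker weights. -/
theorem quad_succ (h j : ℕ) [NeZero h] (t : ℕ) (u0 : Fin (j + 2) → ZMod (2 * h))
    (v1 : Fin j → ZMod (2 * h)) (ξ : ZMod (2 * h) → ℝ) :
    ∑ q1 : ZMod (2 * h), ∑ q1' : ZMod (2 * h), ξ q1 * ξ q1'
        * (Qmat h j ^ (t + 1)) u0 (Fin.cons q1 (Fin.cons q1' v1))
      = ∑ v : Fin j → ZMod (2 * h),
          (∑ q : ZMod (2 * h), ∑ q' : ZMod (2 * h),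
            (∑ q1 : ZMod (2 * h), ξ q1 * Kmat h (j + 1) (Fin.cons q v) (Fin.cons q1 v1))
              * (∑ q1' : ZMod (2 * h), ξ q1' * Kmat h (j + 1) (Fin.cons q' v) (Fin.cons q1' v1))
              * (Qmat h j ^ t) u0 (Fin.cons q (Fin.cons q' v))) / Kmat h j v v1 := by
  refine Eq.trans ?_ (e1_generic ξ (fun v q q' => (Qmat h j ^ t) u0 (Fin.cons q (Fin.cons q' v)))
    (fun v q q1 => Kmat h (j + 1) (Fin.cons q v) (Fin.cons q1 v1)) (fun v => Kmat h j v v1))
  refine Finset.sum_congr rfl fun q1 _ => Finset.sum_congr rfl fun q1' _ => ?_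
  rw [Qpow_succ_expand]

/-- (E2) One-step expansion of the linear form of the one-walker weights. -/
theorem lin_succ (h j : ℕ) [NeZero h] (t : ℕ) (z : Fin (j + 1) → ZMod (2 * h))
    (v1 : Fin j → ZMod (2 * h)) (ξ : ZMod (2 * h) → ℝ) :
    ∑ q1 : ZMod (2 * h), ξ q1 * (Kmat h (j + 1) ^ (t + 1)) z (Fin.cons q1 v1)
      = ∑ v : Fin j → ZMod (2 * h), ∑ q : ZMod (2 * h),
          (∑ q1 : ZMod (2 * h), ξ q1 * Kmat h (j + 1) (Fin.cons q v) (Fin.cons q1 v1))
            * (Kmat h (j + 1) ^ t) z (Fin.cons q v) := by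
  have hexp : ∀ q1 : ZMod (2 * h), (Kmat h (j + 1) ^ (t + 1)) z (Fin.cons q1 v1)
      = ∑ q : ZMod (2 * h), ∑ v : Fin j → ZMod (2 * h),
          (Kmat h (j + 1) ^ t) z (Fin.cons q v)
            * Kmat h (j + 1) (Fin.cons q v) (Fin.cons q1 v1) := by
    intro q1
    rw [pow_succ, Matrix.mul_apply]
    exact H16.cn_sum_succ j (fun x => (Kmat h (j + 1) ^ t) z x
      * Kmat h (j + 1) x (Fin.cons q1 v1))
  calc ∑ q1 : ZMod (2 * h), ξ q1 * (Kmat h (j + 1) ^ (t + 1)) z (Fin.cons q1 v1)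
      = ∑ q1 : ZMod (2 * h), ξ q1 * ∑ q : ZMod (2 * h), ∑ v : Fin j → ZMod (2 * h),
          (Kmat h (j + 1) ^ t) z (Fin.cons q v)
            * Kmat h (j + 1) (Fin.cons q v) (Fin.cons q1 v1) :=
        Finset.sum_congr rfl fun q1 _ => by rw [hexp q1]
    _ = ∑ v : Fin j → ZMod (2 * h), ∑ q : ZMod (2 * h),
          (∑ q1 : ZMod (2 * h), ξ q1 * Kmat h (j + 1) (Fin.cons q v) (Fin.cons q1 v1))
            * (Kmat h (j + 1) ^ t) z (Fin.cons q v) :=
        e2_generic ξ (fun v q => (Kmat h (j + 1) ^ t) z (Fin.cons q v))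
          (fun v q q1 => Kmat h (j + 1) (Fin.cons q v) (Fin.cons q1 v1))

/-- The two-walker weights started from a common position are positive semidefinite in the
two walker positions. -/
theorem Qpow_psd (h j : ℕ) [NeZero h] (t : ℕ) (p : ZMod (2 * h)) (w v : Fin j → ZMod (2 * h))
    (ξ : ZMod (2 * h) → ℝ) :
    0 ≤ ∑ q : ZMod (2 * h), ∑ q' : ZMod (2 * h), ξ q * ξ q'
      * (Qmat h j ^ t) (Fin.cons p (Fin.cons p w)) (Fin.cons q (Fin.cons q' v)) := by
  induction t generalizing v ξ with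
  | zero =>
    refine Finset.sum_nonneg fun q _ => Finset.sum_nonneg fun q' _ => ?_
    rw [pow_zero, Matrix.one_apply]
    by_cases hc : (Fin.cons p (Fin.cons p w) : Fin (j + 2) → ZMod (2 * h))
        = Fin.cons q (Fin.cons q' v)
    · have h1 : p = q := (Fin.cons_inj.mp hc).1
      have h2 : p = q' := (Fin.cons_inj.mp (Fin.cons_inj.mp hc).2).1
      rw [if_pos hc, ← h1, ← h2, mul_one]
      exact mul_self_nonneg _
    · rw [if_neg hc, mul_zero]
  | succ t ih =>
    rw [quad_succ]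
    exact Finset.sum_nonneg fun v0 _ => div_nonneg
      (ih v0 (fun q => ∑ q1 : ZMod (2 * h), ξ q1
        * Kmat h (j + 1) (Fin.cons q v0) (Fin.cons q1 v)))
      (H95.stepProb_nonneg h j v0 v)

/-- Cauchy-Schwarz propagation: the squared linear form of the one-walker weights is at most
the old-card weight times the quadratic form of the two-walker weights. -/
theorem cs_prop (h j : ℕ) [NeZero h] (t : ℕ) (p : ZMod (2 * h)) (w v : Fin j → ZMod (2 * h))
    (ξ : ZMod (2 * h) → ℝ) :
    (∑ q : ZMod (2 * h), ξ q * (Kmat h (j + 1) ^ t) (Fin.cons p w) (Fin.cons q v)) ^ 2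
      ≤ (Kmat h j ^ t) w v * ∑ q : ZMod (2 * h), ∑ q' : ZMod (2 * h), ξ q * ξ q'
        * (Qmat h j ^ t) (Fin.cons p (Fin.cons p w)) (Fin.cons q (Fin.cons q' v)) := by
  induction t generalizing v ξ with
  | zero =>
    by_cases hwv : w = v
    · subst hwv
      have e1 : ∑ q : ZMod (2 * h), ξ q
          * (Kmat h (j + 1) ^ 0) (Fin.cons p w) (Fin.cons q w) = ξ p := by
        rw [Finset.sum_eq_single p]
        · rw [pow_zero, Matrix.one_apply, if_pos rfl, mul_one]
        · intro q _ hq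
          rw [pow_zero, Matrix.one_apply, if_neg, mul_zero]
          intro hc
          exact hq ((Fin.cons_inj.mp hc).1).symm
        · intro hp
          exact absurd (Finset.mem_univ p) hp
      have e2 : ∑ q : ZMod (2 * h), ∑ q' : ZMod (2 * h), ξ q * ξ q'
          * (Qmat h j ^ 0) (Fin.cons p (Fin.cons p w)) (Fin.cons q (Fin.cons q' w))
          = ξ p * ξ p := by
        rw [Finset.sum_eq_single p]
        · rw [Finset.sum_eq_single p]
          · rw [pow_zero, Matrix.one_apply, if_pos rfl, mul_one]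
          · intro q' _ hq'
            rw [pow_zero, Matrix.one_apply, if_neg, mul_zero]
            intro hc
            exact hq' ((Fin.cons_inj.mp (Fin.cons_inj.mp hc).2).1).symm
          · intro hp
            exact absurd (Finset.mem_univ p) hp
        · intro q _ hq
          refine Finset.sum_eq_zero fun q' _ => ?_
          rw [pow_zero, Matrix.one_apply, if_neg, mul_zero]
          intro hc
          exact hq ((Fin.cons_inj.mp hc).1).symm
        · intro hp
          exact absurd (Finset.mem_univ p) hp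
      rw [e1, e2, pow_zero, Matrix.one_apply, if_pos rfl, one_mul, sq]
    · have e1 : ∑ q : ZMod (2 * h), ξ q
          * (Kmat h (j + 1) ^ 0) (Fin.cons p w) (Fin.cons q v) = 0 := by
        refine Finset.sum_eq_zero fun q _ => ?_
        rw [pow_zero, Matrix.one_apply, if_neg, mul_zero]
        intro hc
        exact hwv (Fin.cons_inj.mp hc).2
      rw [e1, pow_zero (Kmat h j), Matrix.one_apply, if_neg hwv, zero_mul]
      exact le_of_eq (zero_pow two_ne_zero)
  | succ t ih =>
    have hK0 : (Kmat h j ^ (t + 1)) w v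
        = ∑ v0 : Fin j → ZMod (2 * h), (Kmat h j ^ t) w v0 * Kmat h j v0 v := by
      rw [pow_succ, Matrix.mul_apply]
    rw [lin_succ h j t (Fin.cons p w) v ξ, quad_succ h j t (Fin.cons p (Fin.cons p w)) v ξ, hK0]
    refine Finset.sum_sq_le_sum_mul_sum_of_sq_le_mul Finset.univ ?_ ?_ ?_
    · intro v0 _
      exact mul_nonneg (H95.Kmat_pow_nonneg h j t w v0) (H95.stepProb_nonneg h j v0 v)
    · intro v0 _
      exact div_nonneg
        (Qpow_psd h j t p w v0 (fun q => ∑ q1 : ZMod (2 * h), ξ q1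
          * Kmat h (j + 1) (Fin.cons q v0) (Fin.cons q1 v)))
        (H95.stepProb_nonneg h j v0 v)
    · intro v0 _
      by_cases hz : Kmat h j v0 v = 0
      · have hη : ∀ q : ZMod (2 * h), ∑ q1 : ZMod (2 * h), ξ q1
            * Kmat h (j + 1) (Fin.cons q v0) (Fin.cons q1 v) = 0 := by
          intro q
          refine Finset.sum_eq_zero fun q1 _ => ?_
          have hs : ∑ q1 : ZMod (2 * h), Kmat h (j + 1) (Fin.cons q v0) (Fin.cons q1 v) = 0 := by
            rw [H43.step_tail h j (Fin.cons q v0) v, Fin.tail_cons]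
            exact hz
          have hnn : ∀ q2 ∈ (Finset.univ : Finset (ZMod (2 * h))),
              0 ≤ Kmat h (j + 1) (Fin.cons q v0) (Fin.cons q2 v) :=
            fun q2 _ => H95.stepProb_nonneg h (j + 1) (Fin.cons q v0) (Fin.cons q2 v)
          have h0 : Kmat h (j + 1) (Fin.cons q v0) (Fin.cons q1 v) = 0 :=
            (Finset.sum_eq_zero_iff_of_nonneg hnn).mp hs q1 (Finset.mem_univ q1)
          rw [h0, mul_zero]
        have hX : ∑ q : ZMod (2 * h), (∑ q1 : ZMod (2 * h), ξ q1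
            * Kmat h (j + 1) (Fin.cons q v0) (Fin.cons q1 v))
            * (Kmat h (j + 1) ^ t) (Fin.cons p w) (Fin.cons q v0) = 0 := by
          refine Finset.sum_eq_zero fun q _ => ?_
          rw [hη q, zero_mul]
        rw [hX, zero_pow two_ne_zero]
        exact mul_nonneg
          (mul_nonneg (H95.Kmat_pow_nonneg h j t w v0) (H95.stepProb_nonneg h j v0 v))
          (div_nonneg
            (Qpow_psd h j t p w v0 (fun q => ∑ q1 : ZMod (2 * h), ξ q1
              * Kmat h (j + 1) (Fin.cons q v0) (Fin.cons q1 v)))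
            (H95.stepProb_nonneg h j v0 v))
      · exact le_of_le_of_eq
          (ih v0 (fun q => ∑ q1 : ZMod (2 * h), ξ q1
            * Kmat h (j + 1) (Fin.cons q v0) (Fin.cons q1 v)))
          (cancel_mid _ _ _ hz)

/-- Diagonal case of the Cauchy-Schwarz propagation. -/
theorem diag_cs (h j : ℕ) [NeZero h] (t : ℕ) (p q : ZMod (2 * h)) (w v : Fin j → ZMod (2 * h)) :
    ((Kmat h (j + 1) ^ t) (Fin.cons p w) (Fin.cons q v)) ^ 2
      ≤ (Kmat h j ^ t) w v
        * (Qmat h j ^ t) (Fin.cons p (Fin.cons p w)) (Fin.cons q (Fin.cons q v)) := by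
  have key := cs_prop h j t p w v (fun x => if x = q then (1 : ℝ) else 0)
  have e1 : ∑ x : ZMod (2 * h), (if x = q then (1 : ℝ) else 0)
      * (Kmat h (j + 1) ^ t) (Fin.cons p w) (Fin.cons x v)
      = (Kmat h (j + 1) ^ t) (Fin.cons p w) (Fin.cons q v) :=
    single_sum q (fun x => (Kmat h (j + 1) ^ t) (Fin.cons p w) (Fin.cons x v))
  have e2 : ∑ x : ZMod (2 * h), ∑ y : ZMod (2 * h),
      (if x = q then (1 : ℝ) else 0) * (if y = q then (1 : ℝ) else 0)
        * (Qmat h j ^ t) (Fin.cons p (Fin.cons p w)) (Fin.cons x (Fin.cons y v))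
      = (Qmat h j ^ t) (Fin.cons p (Fin.cons p w)) (Fin.cons q (Fin.cons q v)) :=
    single_sum2 q q (fun x y =>
      (Qmat h j ^ t) (Fin.cons p (Fin.cons p w)) (Fin.cons x (Fin.cons y v)))
  calc ((Kmat h (j + 1) ^ t) (Fin.cons p w) (Fin.cons q v)) ^ 2
      = (∑ x : ZMod (2 * h), (if x = q then (1 : ℝ) else 0)
          * (Kmat h (j + 1) ^ t) (Fin.cons p w) (Fin.cons x v)) ^ 2 := by rw [e1]
    _ ≤ (Kmat h j ^ t) w v * ∑ x : ZMod (2 * h), ∑ y : ZMod (2 * h),
          (if x = q then (1 : ℝ) else 0) * (if y = q then (1 : ℝ) else 0)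
            * (Qmat h j ^ t) (Fin.cons p (Fin.cons p w)) (Fin.cons x (Fin.cons y v)) := key
    _ = (Kmat h j ^ t) w v
          * (Qmat h j ^ t) (Fin.cons p (Fin.cons p w)) (Fin.cons q (Fin.cons q v)) := by rw [e2]

/-- Off-diagonal two-walker weights are at most the average of the two diagonal ones, given
the symmetry of the two-walker kernel under exchanging the walkers. -/
theorem Qpow_two_le_of (h j : ℕ) [NeZero h]
    (hswap : ∀ (t : ℕ) (p p' q q' : ZMod (2 * h)) (w v : Fin j → ZMod (2 * h)),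
      (Qmat h j ^ t) (Fin.cons p (Fin.cons p' w)) (Fin.cons q (Fin.cons q' v))
        = (Qmat h j ^ t) (Fin.cons p' (Fin.cons p w)) (Fin.cons q' (Fin.cons q v)))
    (t : ℕ) (p q q' : ZMod (2 * h)) (w v : Fin j → ZMod (2 * h)) :
    2 * (Qmat h j ^ t) (Fin.cons p (Fin.cons p w)) (Fin.cons q (Fin.cons q' v))
      ≤ (Qmat h j ^ t) (Fin.cons p (Fin.cons p w)) (Fin.cons q (Fin.cons q v))
        + (Qmat h j ^ t) (Fin.cons p (Fin.cons p w)) (Fin.cons q' (Fin.cons q' v)) := by
  have key := Qpow_psd h j t p w v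
    (fun x => (if x = q then (1 : ℝ) else 0) - (if x = q' then (1 : ℝ) else 0))
  have e2 : ∑ x : ZMod (2 * h), ∑ y : ZMod (2 * h),
      ((if x = q then (1 : ℝ) else 0) - (if x = q' then (1 : ℝ) else 0))
        * ((if y = q then (1 : ℝ) else 0) - (if y = q' then (1 : ℝ) else 0))
        * (Qmat h j ^ t) (Fin.cons p (Fin.cons p w)) (Fin.cons x (Fin.cons y v))
      = (Qmat h j ^ t) (Fin.cons p (Fin.cons p w)) (Fin.cons q (Fin.cons q v))
        - (Qmat h j ^ t) (Fin.cons p (Fin.cons p w)) (Fin.cons q (Fin.cons q' v))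
        - (Qmat h j ^ t) (Fin.cons p (Fin.cons p w)) (Fin.cons q' (Fin.cons q v))
        + (Qmat h j ^ t) (Fin.cons p (Fin.cons p w)) (Fin.cons q' (Fin.cons q' v)) :=
    diff_sum2 q q' (fun x y =>
      (Qmat h j ^ t) (Fin.cons p (Fin.cons p w)) (Fin.cons x (Fin.cons y v)))
  have key2 : 0 ≤ (Qmat h j ^ t) (Fin.cons p (Fin.cons p w)) (Fin.cons q (Fin.cons q v))
        - (Qmat h j ^ t) (Fin.cons p (Fin.cons p w)) (Fin.cons q (Fin.cons q' v))
        - (Qmat h j ^ t) (Fin.cons p (Fin.cons p w)) (Fin.cons q' (Fin.cons q v))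
        + (Qmat h j ^ t) (Fin.cons p (Fin.cons p w)) (Fin.cons q' (Fin.cons q' v)) :=
    le_of_le_of_eq key e2
  have hs := hswap t p p q' q w v
  linarith

end Vale.Agent.Lib.P162.H16CV
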