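import Mathlib
import Vale.Agent.Lib.P162.Defs
import Vale.Agent.Lib.P162.RDefs
import Vale.Agent.Lib.P162.CVDefs
import Vale.Agent.Lib.P162.helper71.QpowSupport
import Vale.Agent.Lib.P162.helper16.CVPsd

/-!
Thorp shuffle, two-walker kernel (pool piece P162-CV4, last statement): off-diagonal two-walker
weights started from a common position are at most the average of the two diagonal ones.
-/

namespace Vale.Agent.Lib.P162.H16CV

open Finset BigOperators

/-- Off-diagonal two-walker weights are at most the average of the two diagonal ones. -/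
theorem Qpow_two_le (h j : ℕ) [NeZero h] (t : ℕ) (p q q' : ZMod (2 * h))
    (w v : Fin j → ZMod (2 * h)) :
    2 * (Qmat h j ^ t) (Fin.cons p (Fin.cons p w)) (Fin.cons q (Fin.cons q' v))
      ≤ (Qmat h j ^ t) (Fin.cons p (Fin.cons p w)) (Fin.cons q (Fin.cons q v))
        + (Qmat h j ^ t) (Fin.cons p (Fin.cons p w)) (Fin.cons q' (Fin.cons q' v)) :=
  Qpow_two_le_of h j (fun t p p' q q' w v => H71CV.Qpow_swap h j t p p' q q' w v) t p q q' w v

end Vale.Agent.Lib.P162.H16CV
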